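import Vale.Agent.P299.Stmt
import Vale.Agent.P299.Main

open scoped Manifold ContDiff
open Vale.Agent.P271.Stmt Vale.Agent.P299.Stmt

theorem Vale.Agent.Results.P299.Nonvanishing.result (n : ℕ) (X : Type) [TopologicalSpace X]
    [T2Space X] [CompactSpace X] [ConnectedSpace X] [ChartedSpace (Fin n → ℂ) X]
    [IsManifold 𝓘(ℂ, Fin n → ℂ) ω X]
    (L : Cocycle X) (hL : IsLineBundle n L) (hV : VeryAmple n L)
    (h : X → X → ℝ) (hh : IsSemipositiveMetric n (dual (canonical n X)) h) :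
    ∃ m : ℕ, 0 < m ∧ ∃ s, IsSection n (power (dual (canonical n X)) m) s ∧
      ∃ i, ∃ p ∈ (power (dual (canonical n X)) m).U i, s i p ≠ 0 :=
  Vale.Agent.P299.main n X L hL hV h hh
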